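import Vale.Agent.P299.H223.Top0
import Vale.Agent.P299.H223.Hom
import Vale.Agent.P299.H598.PartI

/-!
# P299, Q1 : anticanonical nonvanishing
-/

open scoped Manifold ContDiff
open Vale.Agent.P272.K Vale.Agent.P299.Final Vale.Agent.P300.Final

/-- **Q1 of P299.** Let `X` be a compact connected complex manifold of dimension `n` which is
smooth projective, and whose anticanonical bundle has a smooth Hermitian metric with semipositive
curvature. Then `-mK_X` has a nonzero holomorphic section for some `m > 0`. -/
theorem Vale.Agent.Results.P299.AnticanonicalNonvanishing.result (n : ℕ) (X : Type)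
    [TopologicalSpace X] [T2Space X] [CompactSpace X] [ConnectedSpace X]
    [ChartedSpace (Cm n) X] [IsManifold 𝓘(ℂ, Cm n) ω X] (hX : IsSmoothProjective (Cm n) X)
    (hφ : ∃ φ : Chart n X → Cm n → ℝ, IsAnticanonicalMetric φ ∧ IsSemipositive φ) :
    ∃ m : ℕ, 0 < m ∧ ∃ s : Chart n X → Cm n → ℂ,
      IsAnticanonicalSection m s ∧ IsNonzeroSection s :=
  Vale.Agent.P299.H223.nonvanishing_of Vale.Agent.P299.PartI.tensorStatement
    (Vale.Agent.P299.H223.partII_of fun _ _ _ _ _ _ _ _ D _ _ _ _ _ _ =>
      Vale.Agent.P299.H223.homProp D) n X hX hφ
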